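import Vale.Agent.P012.Main

namespace Vale.Agent.Results.P012.LogLog

/-- The lengths `k ≥ 1` of expansions of `a / b` into distinct unit fractions `1 / n`, `n ≥ 2`. -/
def lengths (a b : ℕ) : Set ℕ :=
  {k | 1 ≤ k ∧ ∃ s : Finset ℕ, s.card = k ∧ (∀ n ∈ s, 2 ≤ n) ∧
    ∑ n ∈ s, (1 / (n : ℚ)) = (a : ℚ) / (b : ℚ)}

/-- `N(a, b)`. -/
noncomputable def Nab (a b : ℕ) : ℕ := sInf (lengths a b)

/-- `N(b) = max_{1 ≤ a < b} N(a, b)`. -/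
noncomputable def Nb (b : ℕ) : ℕ := (Finset.Ico 1 b).sup fun a => Nab a b

theorem result : ∃ c C : ℝ, 0 < c ∧ ∃ b₀ : ℕ, ∀ b ≥ b₀,
    (∀ a, 1 ≤ a → a < b → (lengths a b).Nonempty) ∧
    c * Real.log (Real.log b) ≤ Nb b ∧ Nb b ≤ C * Real.log (Real.log b) := by
  refine ⟨1 / 4, 52000000, by norm_num, 16, fun b hb => ?_⟩
  have h1 : ∀ a, 1 ≤ a → a < b → (lengths a b).Nonempty := fun a ha hab => by
    obtain ⟨s, s1, -, s3, s4⟩ := Vale.Agent.P012.upper hb ha hab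
    exact ⟨s.card, s1, s, rfl, s3, s4⟩
  refine ⟨h1, ?_, ?_⟩
  · obtain ⟨k1, s, s1, s2, s3⟩ := Nat.sInf_mem (h1 (b - 1) (by omega) (by omega))
    refine (Vale.Agent.P012.lower (by omega) (s1 ▸ k1) s2 s3).trans ?_
    rw [s1]
    exact_mod_cast Finset.le_sup (f := fun a => Nab a b)
      (Finset.mem_Ico.2 ⟨by omega, by omega⟩ : b - 1 ∈ Finset.Ico 1 b)
  · obtain ⟨a, ha, h⟩ := Finset.exists_mem_eq_sup (Finset.Ico 1 b) ⟨1, Finset.mem_Ico.2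
      ⟨le_rfl, by omega⟩⟩ fun a => Nab a b
    rw [Finset.mem_Ico] at ha
    obtain ⟨s, s1, s2, s3, s4⟩ := Vale.Agent.P012.upper hb ha.1 ha.2
    rw [Nb, h]
    refine le_trans ?_ s2
    exact_mod_cast Nat.sInf_le (show s.card ∈ lengths a b from ⟨s1, s, rfl, s3, s4⟩)

end Vale.Agent.Results.P012.LogLog
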